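import Vale.Agent.P269L.Rf.Abs
import Vale.Agent.P277Z.Oka.Noe
import Vale.Agent.P281.H511.Gen.Local

/-!
# Germs of holomorphic functions are flat over polynomials with holomorphic coefficients
-/

open Filter Topology MvPolynomial
open Vale.Agent.P298.H941 Vale.Agent.P277Z.Oka

noncomputable section

namespace Vale.Agent.P269L.Rf

section der

variable {E : Type} [NormedAddCommGroup E] [NormedSpace ℂ E]

theorem ana_der {f : E → ℂ} {x : E} (hf : AnalyticAt ℂ f x) (v : E) :
    AnalyticAt ℂ (fun y => fderiv ℂ f y v) x :=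
  ((ContinuousLinearMap.apply ℂ ℂ v).analyticAt _).comp hf.fderiv

/-- the derivative of a germ in the direction `v` -/
def dv (v : E) (a : O E) : O E := gm 0 fun y => fderiv ℂ (exists_rep a).choose y v

theorem dv_mk (v : E) {f : E → ℂ} (hf : AnalyticAt ℂ f 0) :
    dv v (mk f hf) = mk (fun y => fderiv ℂ f y v) (ana_der hf v) := by
  obtain ⟨h1, h2⟩ := (exists_rep (mk f hf)).choose_spec
  rw [dv, gm_zero_eq (ana_der h1 v)]
  refine mk_congr _ _ ?_
  filter_upwards [((mk_eq_iff _ _).1 h2).fderiv (𝕜 := ℂ)] with y hy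
  rw [hy]

theorem dv_add (v : E) (a b : O E) : dv v (a + b) = dv v a + dv v b := by
  obtain ⟨f, hf, rfl⟩ := exists_rep a
  obtain ⟨g, hg, rfl⟩ := exists_rep b
  rw [mk_add, dv_mk, dv_mk, dv_mk, mk_add]
  refine mk_congr _ _ ?_
  filter_upwards [hf.eventually_analyticAt, hg.eventually_analyticAt] with y h1 h2
  rw [fderiv_fun_add h1.differentiableAt h2.differentiableAt]
  rfl

theorem dv_mul (v : E) (a b : O E) : dv v (a * b) = a * dv v b + b * dv v a := by
  obtain ⟨f, hf, rfl⟩ := exists_rep a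
  obtain ⟨g, hg, rfl⟩ := exists_rep b
  rw [mk_mul, dv_mk, dv_mk, dv_mk, mk_mul, mk_mul, mk_add]
  refine mk_congr _ _ ?_
  filter_upwards [hf.eventually_analyticAt, hg.eventually_analyticAt] with y h1 h2
  rw [fderiv_fun_mul h1.differentiableAt h2.differentiableAt]
  rfl

theorem dv_pow_mem (v : E) (J : Ideal (O E)) (n : ℕ) : ∀ a ∈ J ^ (n + 1), dv v a ∈ J ^ n := by
  induction n with
  | zero => simp
  | succ n ih =>
    intro a ha
    rw [pow_succ] at ha
    refine Submodule.mul_induction_on ha (fun b hb c hc => ?_) fun b c hb hc => ?_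
    · rw [dv_mul]
      exact add_mem (Ideal.mul_mem_right _ _ hb) (pow_succ' J n ▸ Ideal.mul_mem_mul hc (ih b hb))
    · rw [dv_add]
      exact add_mem hb hc

end der

variable (E : Type) [NormedAddCommGroup E] [NormedSpace ℂ E] {ι : Type} [Fintype ι]

theorem ana_co (i : ι) (z : E × (ι → ℂ)) : AnalyticAt ℂ (fun z : E × (ι → ℂ) => z.2 i) z :=
  ((ContinuousLinearMap.proj i : (ι → ℂ) →L[ℂ] ℂ).comp (.snd ℂ E (ι → ℂ))).analyticAt z

/-- the coordinate `i` of the second factor -/
def co (i : ι) : O (E × (ι → ℂ)) := mk (fun z => z.2 i) (ana_co E i 0)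

variable (ι) in
/-- germs on the first factor -/
def fstH : O E →ₐ[ℂ] O (E × (ι → ℂ)) := pull Prod.fst analyticAt_fst rfl

variable (ι) in
/-- restriction to the first factor -/
def resH : O (E × (ι → ℂ)) →ₐ[ℂ] O E :=
  pull (fun x => (x, 0)) (analyticAt_id.prod analyticAt_const) rfl

/-- polynomials with coefficients germs, as germs at a point with second coordinate `ξ` -/
def evm (ξ : ι → ℂ) : MvPolynomial ι (O E) →+* O (E × (ι → ℂ)) :=
  eval₂Hom (fstH E ι : O E →+* _) fun i => co E i + algebraMap ℂ _ (ξ i)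

variable {E}

theorem evm_C (ξ : ι → ℂ) (a : O E) : evm E ξ (C a) = fstH E ι a := eval₂Hom_C _ _ _

theorem evm_X (ξ : ι → ℂ) (i : ι) : evm E ξ (X i) = co E i + algebraMap ℂ _ (ξ i) :=
  eval₂Hom_X' _ _ _

theorem gm_fst' {x : E} (ξ : ι → ℂ) {a : E → ℂ} (ha : AnalyticAt ℂ a x) :
    gm (x, ξ) (fun z => a z.1) = evm E ξ (C (gm x a)) := by
  rw [evm_C, gm_eq ha, gm_eq (x := (x, ξ)) (f := fun z => a z.1) (ha.comp_of_eq analyticAt_fst rfl)]
  rfl

theorem gm_co (x : E) (ξ : ι → ℂ) (i : ι) : gm (x, ξ) (fun z => z.2 i) = evm E ξ (X i) := by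
  rw [evm_X, gm_eq (ana_co E i _), add_comm]
  rfl

theorem res_fst (a : O E) : resH E ι (fstH E ι a) = a := by
  obtain ⟨f, hf, rfl⟩ := exists_rep a
  rfl

theorem res_co (i : ι) : resH E ι (co E i) = 0 := rfl

theorem res_evm (p : MvPolynomial ι (O E)) : resH E ι (evm E 0 p) = constantCoeff p := by
  induction p using MvPolynomial.induction_on with
  | C a => rw [evm_C, res_fst, constantCoeff_C]
  | add p q a b => rw [map_add, map_add, map_add, a, b]
  | mul_X p i a => simp [evm_X, res_co]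

theorem map_vars : (idealOfVars ι (O E)).map (evm E 0) = Ideal.span (Set.range (co E)) := by
  rw [Ideal.map_span, ← Set.range_comp]
  congr 2
  funext i
  simp [evm_X]

/-- the lemma of Hadamard -/
theorem sub_res (t : O (E × (ι → ℂ))) :
    t - fstH E ι (resH E ι t) ∈ Ideal.span (Set.range (co E)) := by
  classical
  obtain ⟨f, hf, rfl⟩ := exists_rep t
  obtain ⟨Q, q1, q2⟩ := P281.H511.Gen.exists_division
    ((ContinuousLinearMap.inl ℂ E (ι → ℂ)).comp (.fst ℂ E (ι → ℂ)))
    (ContinuousLinearMap.opNorm_le_bound _ zero_le_one fun z => by simp [Prod.norm_def]) hf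
  have ha : ∀ i, AnalyticAt ℂ (fun z => Q z (0, Pi.single i 1)) 0 := fun i =>
    ((ContinuousLinearMap.apply ℂ ℂ ((0 : E), (Pi.single i 1 : ι → ℂ))).analyticAt _).comp q1
  refine (Submodule.mem_span_range_iff_exists_fun _).2 ⟨fun i => mk _ (ha i), ?_⟩
  simp only [smul_eq_mul, co, mk_mul]
  rw [mk_sum]
  refine mk_congr _ _ ?_
  filter_upwards [q2] with z hz
  have e : z - (z.1, 0) = ∑ i, z.2 i • ((0 : E), (Pi.single i 1 : ι → ℂ)) := by
    refine Prod.ext (by simp [Prod.fst_sum]) ?_
    rw [Prod.snd_sum, Prod.snd_sub, sub_zero]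
    exact pi_eq_sum_univ' z.2
  simp only [zero_add, sub_zero, ContinuousLinearMap.comp_apply, ContinuousLinearMap.coe_fst',
    ContinuousLinearMap.inl_apply, e, map_sum, map_smul, smul_eq_mul] at hz
  exact (Finset.sum_congr rfl fun i _ => mul_comm _ _).trans hz.symm

theorem dv_evm [DecidableEq ι] (i : ι) (p : MvPolynomial ι (O E)) :
    dv (0, Pi.single i 1) (evm E 0 p) = evm E 0 (pderiv i p) := by
  induction p using MvPolynomial.induction_on with
  | C a =>
    obtain ⟨f, hf, rfl⟩ := exists_rep a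
    rw [evm_C, pderiv_C, map_zero, fstH, pull_mk, dv_mk, mk_eq_zero_iff]
    filter_upwards [(continuous_fst.tendsto (0 : E × (ι → ℂ))).eventually
      hf.eventually_analyticAt] with z hz
    refine (DFunLike.congr_fun
      (hz.differentiableAt.hasFDerivAt.comp z hasFDerivAt_fst).fderiv _).trans ?_
    simp
  | add p q a b => rw [map_add, dv_add, a, b, map_add, map_add]
  | mul_X p j a =>
    have : dv (0, Pi.single i 1) (co E j) = evm E 0 (pderiv i (X j)) := by
      rw [co, dv_mk, pderiv_X]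
      have e : ∀ z, fderiv ℂ (fun z : E × (ι → ℂ) => z.2 j) z (0, Pi.single i 1) =
          (Pi.single i 1 : ι → ℂ) j := fun z =>
        DFunLike.congr_fun ((ContinuousLinearMap.proj j : (ι → ℂ) →L[ℂ] ℂ).comp
          (.snd ℂ E (ι → ℂ))).hasFDerivAt.fderiv _
      simp only [e]
      rw [← P298.H941.algebraMap_eq]
      by_cases h : j = i <;> simp [h]
    rw [map_mul, dv_mul, a, evm_X, Pi.zero_apply, map_zero, add_zero, this, Derivation.leibniz]
    simp [evm_X]

theorem mem_vars (n : ℕ) : ∀ p : MvPolynomial ι (O E),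
    evm E 0 p ∈ Ideal.span (Set.range (co E)) ^ n → p ∈ idealOfVars ι (O E) ^ n := by
  classical
  induction n with
  | zero => simp
  | succ n ih =>
    intro p hp
    refine (mem_pow_idealOfVars_iff' _ _).2 fun m hm => ?_
    by_cases h0 : m = 0
    · subst h0
      have : Ideal.span (Set.range (co E)) ≤ RingHom.ker (resH E ι) :=
        Ideal.span_le.2 (Set.range_subset_iff.2 res_co)
      exact (res_evm p).symm.trans (this (Ideal.pow_le_self n.succ_ne_zero hp))
    obtain ⟨i, hi⟩ := Finsupp.ne_iff.1 h0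
    obtain ⟨m, rfl⟩ : ∃ m', m = m' + Finsupp.single i 1 :=
      ⟨m - Finsupp.single i 1, (tsub_add_cancel_of_le (by
        simpa using Nat.one_le_iff_ne_zero.2 hi)).symm⟩
    have h1 := (mem_pow_idealOfVars_iff' _ _).1 (ih (pderiv i p)
      (dv_evm i p ▸ dv_pow_mem _ _ n _ hp)) m (by simpa using hm)
    rw [coeff_pderiv] at h1
    refine (IsUnit.mul_left_eq_zero ?_).1 h1
    rw [P298.H941.isUnit_iff, map_add, map_natCast, map_one]
    exact Nat.cast_add_one_ne_zero _

variable [FiniteDimensional ℂ E]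

theorem flat0 : (evm E (0 : ι → ℂ)).Flat := by
  have := noe E
  have := noe (E × (ι → ℂ))
  let _ := (evm E (0 : ι → ℂ)).toAlgebra
  refine flat_of (idealOfVars ι (O E)) ?_ (fun t => ⟨C (resH E ι t), ?_⟩) fun n s h => mem_vars n s ?_
  · refine map_vars.le.trans (le_trans ?_ (IsLocalRing.maximalIdeal_le_jacobson _))
    exact Ideal.span_le.2 (Set.range_subset_iff.2 fun i => (mem_maximalIdeal _).2 rfl)
  · exact map_vars.ge (evm_C (0 : ι → ℂ) (resH E ι t) ▸ sub_res t)
  · exact map_vars (E := E) (ι := ι) ▸ h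

/-- **Germs at `(x, ξ)` are flat over the polynomials with coefficients germs at `x`.** -/
theorem flat (ξ : ι → ℂ) : (evm E ξ).Flat := by
  let τ : MvPolynomial ι (O E) ≃ₐ[O E] MvPolynomial ι (O E) :=
    .ofAlgHom (aeval fun i => X i + C (algebraMap ℂ _ (ξ i)))
      (aeval fun i => X i - C (algebraMap ℂ _ (ξ i))) (by ext; simp) (by ext; simp)
  have e : evm E ξ = (evm E 0).comp (τ : _ →+* _) := by
    refine MvPolynomial.ringHom_ext (fun a => ?_) fun i => ?_
    · simp [τ, evm_C]
    · simp [τ, evm_C, evm_X]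
  rw [e]
  exact (RingHom.Flat.of_bijective τ.bijective).comp flat0

theorem colon_evm (ξ : ι → ℂ) (J : Ideal (MvPolynomial ι (O E))) (a : MvPolynomial ι (O E)) :
    (J.colon {a}).map (evm E ξ) = (J.map (evm E ξ)).colon {evm E ξ a} := colon_map (flat ξ) J a

end Vale.Agent.P269L.Rf
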