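import Mathlib

/-!
# A flatness criterion: rings with the same quotients by the powers of an ideal
-/

namespace Vale.Agent.P269L.Rf

open Function

variable {S T : Type*} [CommRing S] [CommRing T]

theorem mem_smul_top {ι : Type*} [Fintype ι] {J : Ideal S} {v : ι → S} :
    v ∈ J • (⊤ : Submodule S (ι → S)) ↔ ∀ i, v i ∈ J := by
  classical
  refine ⟨fun h => Submodule.smul_induction_on (p := fun v : ι → S => ∀ i, v i ∈ J) h
    (fun r hr n _ i => J.mul_mem_right _ hr) fun x y hx hy i => J.add_mem (hx i) (hy i),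
    fun h => ?_⟩
  rw [pi_eq_sum_univ' v]
  exact Submodule.sum_mem _ fun i _ => Submodule.smul_mem_smul (h i) trivial

section

variable [Algebra S T]

theorem mem_pow {I : Ideal S} {n : ℕ} {s : S} (h : s ∈ I ^ n) :
    algebraMap S T s ∈ I.map (algebraMap S T) ^ n := by
  rw [← Ideal.map_pow]
  exact Ideal.mem_map_of_mem _ h

theorem approx {I : Ideal S} (h1 : ∀ t : T, ∃ s, t - algebraMap S T s ∈ I.map (algebraMap S T))
    (n : ℕ) (t : T) : ∃ s, t - algebraMap S T s ∈ I.map (algebraMap S T) ^ n := by
  have key : ∀ n, ∀ t ∈ (I ^ n).map (algebraMap S T),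
      ∃ s, t - algebraMap S T s ∈ I.map (algebraMap S T) ^ (n + 1) := fun n t ht => by
    suffices h : ∀ u, ∃ s, u * t - algebraMap S T s ∈ I.map (algebraMap S T) ^ (n + 1) by
      simpa using h 1
    refine Submodule.span_induction (p := fun t _ => ∀ u, ∃ s,
      u * t - algebraMap S T s ∈ I.map (algebraMap S T) ^ (n + 1)) ?_ ?_ ?_ ?_ ht
    · rintro _ ⟨s, hs, rfl⟩ u
      obtain ⟨a, ha⟩ := h1 u
      refine ⟨a * s, ?_⟩
      rw [map_mul, ← sub_mul, pow_succ']
      exact Ideal.mul_mem_mul ha (mem_pow hs)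
    · exact fun u => ⟨0, by simp⟩
    · intro x y _ _ hx hy u
      obtain ⟨a, ha⟩ := hx u
      obtain ⟨b, hb⟩ := hy u
      refine ⟨a + b, ?_⟩
      rw [map_add, mul_add, add_sub_add_comm]
      exact add_mem ha hb
    · intro a x _ hx u
      simpa only [smul_eq_mul, mul_assoc] using hx (u * a)
  induction n with
  | zero => exact ⟨0, by simp⟩
  | succ n ih =>
    obtain ⟨a, ha⟩ := ih
    rw [← Ideal.map_pow] at ha
    obtain ⟨b, hb⟩ := key n _ ha
    exact ⟨a + b, by rwa [map_add, ← sub_sub]⟩

/-- If `S / I^n = T / I^n T` for all `n` and `I T` lies in the radical, `T` is flat over `S`. -/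
theorem flat_of [IsNoetherianRing S] [IsNoetherianRing T] (I : Ideal S)
    (hJ : I.map (algebraMap S T) ≤ Ideal.jacobson ⊥)
    (h1 : ∀ t : T, ∃ s, t - algebraMap S T s ∈ I.map (algebraMap S T))
    (h2 : ∀ n s, algebraMap S T s ∈ I.map (algebraMap S T) ^ n → s ∈ I ^ n) :
    Module.Flat S T := by
  refine Module.Flat.of_forall_isTrivialRelation fun {l f x} hx => ?_
  let φ : (Fin l → S) →ₗ[S] S := Fintype.linearCombination S f
  have hφ : ∀ v, φ v = ∑ i, f i * v i := fun v => by
    simp only [φ, Fintype.linearCombination_apply, smul_eq_mul, mul_comm]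
  obtain ⟨k, a, ha⟩ := Submodule.fg_iff_exists_fin_generating_family.1
    (IsNoetherian.noetherian (LinearMap.ker φ))
  let K : Submodule T (Fin l → T) := .span T (Set.range fun j i => algebraMap S T (a j i))
  have hK : ∀ v ∈ LinearMap.ker φ, (fun i => algebraMap S T (v i)) ∈ K := fun v hv => by
    obtain ⟨c, rfl⟩ := (Submodule.mem_span_range_iff_exists_fun S).1 (ha ▸ hv)
    refine (Submodule.mem_span_range_iff_exists_fun T).2 ⟨fun j => algebraMap S T (c j), ?_⟩
    funext i
    simp [Algebra.smul_def]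
  have hm : x ∈ K := by
    obtain ⟨c, hc⟩ := I.exists_pow_inf_eq_pow_smul (LinearMap.range φ)
    have h0 := (I.map (algebraMap S T)).iInf_pow_smul_eq_bot_of_le_jacobson
      (M := (Fin l → T) ⧸ K) hJ
    rw [← Submodule.Quotient.mk_eq_zero, ← Submodule.mem_bot T, ← h0, Submodule.mem_iInf]
    intro n
    choose p hp using fun i => approx h1 (n + c) (x i)
    have e1 : φ p ∈ I ^ (n + c) := h2 _ _ <| by
      have : algebraMap S T (φ p) = -∑ i, f i • (x i - algebraMap S T (p i)) := by
        simp only [smul_sub, Finset.sum_sub_distrib, hx]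
        simp only [hφ, map_sum, map_mul, Algebra.smul_def, zero_sub, neg_neg]
      rw [this]
      exact neg_mem (sum_mem fun i _ => by
        rw [Algebra.smul_def]; exact Ideal.mul_mem_left _ _ (hp i))
    have e2 : φ p ∈ (I ^ n • ⊤ : Submodule S (Fin l → S)).map φ := by
      rw [Submodule.map_smul'', Submodule.map_top]
      have := hc (n + c) (by omega)
      rw [Nat.add_sub_cancel] at this
      refine Submodule.smul_mono le_rfl inf_le_right (this.le ⟨?_, p, rfl⟩)
      simpa using e1
    obtain ⟨q, hq, e3⟩ := e2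
    have e4 := hK (p - q) (by rw [LinearMap.mem_ker, map_sub, e3, sub_self])
    have e5 : x - (fun i => algebraMap S T ((p - q) i)) ∈
        (I.map (algebraMap S T) ^ n • ⊤ : Submodule T (Fin l → T)) := mem_smul_top.2 fun i => by
      have : (x - fun i => algebraMap S T ((p - q) i)) i =
          x i - algebraMap S T (p i) + algebraMap S T (q i) := by simp; ring
      rw [this]
      exact add_mem (Ideal.pow_le_pow_right (by omega) (hp i))
        (mem_pow (mem_smul_top.1 hq i))
    have e6 := Submodule.mem_map_of_mem (f := K.mkQ) e5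
    rw [Submodule.map_smul'', map_sub, K.mkQ_apply, K.mkQ_apply,
      (Submodule.Quotient.mk_eq_zero K).2 e4, sub_zero] at e6
    exact Submodule.smul_mono le_rfl le_top e6
  obtain ⟨y, hy⟩ := (Submodule.mem_span_range_iff_exists_fun T).1 hm
  refine ⟨k, fun i j => a j i, y, fun i => ?_, fun j => ?_⟩
  · rw [← hy, Finset.sum_apply]
    exact Finset.sum_congr rfl fun j _ => by simp [Algebra.smul_def, mul_comm]
  · rw [← hφ]
    exact (ha ▸ Submodule.subset_span ⟨j, rfl⟩ : a j ∈ LinearMap.ker φ)

end

/-- Quotients of ideals commute with flat extensions. -/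
theorem colon_le {φ : S →+* T} (hφ : φ.Flat) (J : Ideal S) (a : S) {t : T}
    (h : t * φ a ∈ J.map φ) : t ∈ (J.colon {a}).map φ := by
  classical
  algebraize [φ]
  obtain ⟨n, c, g, hg⟩ := Submodule.mem_span_set'.1 h
  choose s hs e using fun i => (g i).2
  obtain ⟨k, b, y, h1, h2⟩ := Module.Flat.isTrivialRelation_of_sum_smul_eq_zero (R := S) (M := T)
    (f := fun o : Option (Fin n) => o.elim a fun i => -s i) (x := fun o => o.elim t c) (by
      rw [Fintype.sum_option]
      simp only [Option.elim, Algebra.smul_def, map_neg, neg_mul, Finset.sum_neg_distrib]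
      change φ a * t + -∑ i, φ (s i) * c i = 0
      simp only [e]
      rw [mul_comm, ← hg]
      simp [mul_comm])
  rw [show t = _ from h1 none]
  refine sum_mem fun j _ => ?_
  rw [Algebra.smul_def]
  refine Ideal.mul_mem_right _ _ (Ideal.mem_map_of_mem φ (Submodule.mem_colon_singleton.2 ?_))
  have := h2 j
  rw [Fintype.sum_option] at this
  simp only [Option.elim, neg_mul, Finset.sum_neg_distrib] at this
  rw [smul_eq_mul, mul_comm, eq_of_sub_eq_zero ((sub_eq_add_neg _ _).trans this)]
  exact sum_mem fun i _ => J.mul_mem_right _ (hs i)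

theorem colon_map {φ : S →+* T} (hφ : φ.Flat) (J : Ideal S) (a : S) :
    (J.colon {a}).map φ = (J.map φ).colon {φ a} :=
  le_antisymm (Ideal.map_le_iff_le_comap.2 fun s hs => Ideal.mem_comap.2 <|
    Submodule.mem_colon_singleton.2 <| by
      rw [smul_eq_mul, ← map_mul]
      exact Ideal.mem_map_of_mem φ (Submodule.mem_colon_singleton.1 hs))
    fun _ ht => colon_le hφ J a (Submodule.mem_colon_singleton.1 ht)

end Vale.Agent.P269L.Rf
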